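import Crest.Agent.X212.Qmd96.Alg
import Crest.Agent.X212.Lab56.Eqv
import Crest.Agent.X212.Taub88.Pt8
import Crest.Agent.X212.Num57.Cof
import Crest.Agent.X212.Line51.An
import Crest.Agent.X212.Wz78.Gw
import Crest.Agent.X212.Eqv71.Gau

/-!
# Row 212, QA-MOD (helper96): the curvature of the determinant line over an open set

A local form of `Gm56.cur_ac` (the lemmas before it are those of `Gm56/{Cnn,Cur}`).
-/

set_option autoImplicit false
set_option linter.unusedSectionVars false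

open Set Filter Topology Function
open scoped ContDiff Manifold InnerProductSpace Matrix
open Crest.Agent.R208.F (Ext)
open Crest.Agent.X212.An Crest.Agent.X212.Sob92 Crest.Agent.X212.Lab56 Crest.Agent.X212.Pj41
open Crest.Agent.X212.Wz78 (Frm SA frm curv trE omA)
open Crest.Agent.X212.Line51 (rl iL Ln eb rm)
open Crest.Agent.X212.Num57 (k1 k2 fm1 fm2)
open Crest.Agent.X212.Dr59 (dM)

noncomputable section

namespace Crest.Agent.X212.Qmd96

section pt
variable {ι : Type} [Fintype ι] {P : ι → ι → ℝ} {o : ι → ι → ι → ι → ℝ}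
  {X : Type} [NormedAddCommGroup X] [InnerProductSpace ℝ X] [FiniteDimensional ℝ X]
  {p J : X →L[ℝ] X} {ρ : ι → X →L[ℝ] X}

theorem schur8 (h : Taub88.P8 P o p J ρ) {S : X →L[ℝ] X} (hs : ∀ v w, ⟪S v, w⟫_ℝ = ⟪v, S w⟫_ℝ)
    (hρ : ∀ a, S * ρ a = ρ a * S) (hp : S * p = S) : ∃ r : ℝ, S = r • p := by
  obtain ⟨u, hu, h1⟩ : ∃ u, Taub88.pp o p ρ u = u ∧ ⟪u, u⟫_ℝ = 1 := by
    obtain ⟨v, hv⟩ : ∃ v, Taub88.pp o p ρ v ≠ 0 := by
      by_contra hn
      have := h.tr_pp
      rw [show Taub88.pp o p ρ = 0 from ContinuousLinearMap.ext fun v =>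
        not_not.1 fun k => hn ⟨v, k⟩] at this
      simp [Taub88.tr] at this
    refine ⟨‖Taub88.pp o p ρ v‖⁻¹ • Taub88.pp o p ρ v, ?_, ?_⟩
    · rw [map_smul, ← mul_apply_eq_comp, h.pp_pp]
    · rw [real_inner_self_eq_norm_sq, norm_smul, norm_inv, norm_norm,
        inv_mul_cancel₀ (norm_ne_zero_iff.2 hv), one_pow]
  have c : ∀ a v, S (ρ a v) = ρ a (S v) := fun a v => DFunLike.congr_fun (hρ a) v
  have hp' : p * S = S := ContinuousLinearMap.ext fun v => ext_inner_left ℝ fun w => by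
    rw [mul_apply_eq_comp, ← h.ps, ← hs, ← mul_apply_eq_comp, hp, hs]
  have ho : omA o ρ * S = S * omA o ρ := by
    have h4 : ∀ a b c d, S * (ρ a * ρ b * ρ c * ρ d) = ρ a * ρ b * ρ c * ρ d * S := fun a b c d => by
      simp only [← mul_assoc, hρ]
      simp only [mul_assoc, hρ]
    simp only [omA, Finset.mul_sum, Finset.sum_mul, mul_smul_comm, smul_mul_assoc, h4]
  have e1 : Taub88.pp o p ρ (S u) = S u := by
    rw [← mul_apply_eq_comp, Taub88.pp, smul_mul_assoc, sub_mul, hp', ho]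
    nth_rewrite 1 [← hp]
    rw [← mul_sub, ← mul_smul_comm]
    exact congrArg S hu
  have e2 : ∀ a b, ⟪ρ a (ρ b u), S u⟫_ℝ = -⟪u, S u⟫_ℝ * P a b := fun a b => by
    have k : ⟪ρ b (ρ a u), S u⟫_ℝ = ⟪ρ a (ρ b u), S u⟫_ℝ := by
      rw [h.ρs b, h.ρs a, ← c, ← c, ← hs, real_inner_comm, neg_neg]
    have := congrArg (⟪·, S u⟫_ℝ) (h.rel a b u)
    simp only [inner_sub_left, inner_neg_left, real_inner_smul_left, k, h.p_of hu] at this
    linarith
  have e3 := h.par2 hu (S u)
  have e0 := DFunLike.congr_fun h.sum_sq u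
  have e6 : ∀ a, ∑ b, P a b • ρ a (ρ b u) = ρ a (ρ a u) := fun a => by
    simpa only [map_sum, map_smul] using congrArg (ρ a) (h.sum_ρ a u)
  simp only [_root_.sum_apply, mul_apply_eq_comp, smul_apply, h.p_of hu] at e0
  simp only [e1, e2, h1, mul_smul, ← Finset.smul_sum, e6, e0] at e3
  have e4 : S u = ⟪u, S u⟫_ℝ • u := by linear_combination (norm := module) (-1 / 4 : ℝ) • e3
  generalize ⟪u, S u⟫_ℝ = r at e4
  refine ⟨r, ContinuousLinearMap.ext fun v => ?_⟩
  have := h.ext8 hu h1 (X := S - r • 1) (fun a => by simp [c, e4]) (fun a b => by simp [c, e4]) v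
  rw [sub_apply, sub_eq_zero, ← mul_apply_eq_comp, hp] at this
  exact this

/-- skew operators of the commutant are multiples of `J p` -/
theorem schur_sk (h : Taub88.P8 P o p J ρ) {T : X →L[ℝ] X} (hs : ∀ v w, ⟪T v, w⟫_ℝ = -⟪v, T w⟫_ℝ)
    (hρ : ∀ a, T * ρ a = ρ a * T) (hJ : J * T = T * J) (hp : T * p = T) :
    T = (-Taub88.tr (J * T) / 8) • (J * p) := by
  obtain ⟨r, e⟩ := schur8 h (S := J * T)
    (fun v w => by rw [mul_apply_eq_comp, h.Js, hs, neg_neg, hJ, mul_apply_eq_comp])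
    (fun a => by rw [mul_assoc, hρ, ← mul_assoc, h.Jρ, mul_assoc]) (by rw [mul_assoc, hp])
  have e2 : T * (J * J * p) = J * (J * T) := by
    rw [← mul_assoc, ← mul_assoc, ← hJ, mul_assoc J T, ← hJ, mul_assoc, mul_assoc, hp]
  rw [h.JJ, mul_neg, hp, e, mul_smul_comm] at e2
  rw [e, Taub88.tr_smul, h.rk, ← neg_neg T, e2, ← neg_smul]
  congr 1; ring

end pt

section cj
variable {κ : Type} [Fintype κ] [DecidableEq κ]

variable (κ) in
/-- complex conjugation -/
def cK : En (κ ⊕ κ) := Kb (eb (κ ⊕ κ))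

theorem rl_cj (A : Matrix κ κ ℂ) : rl (cj A) = cK κ * rl A * cK κ := rb_cj (eb _) A

theorem cK_sq : cK κ * cK κ = 1 := K_sq _

theorem cK_J : cK κ * iL κ * cK κ = -iL κ := by
  rw [show cK κ * iL κ = -(iL κ * cK κ) from K_J (eb _), neg_mul, mul_assoc, cK_sq, mul_one]

theorem cK_trn : trn (cK κ) = cK κ := K_trn _

theorem cK_skw {A : En (κ ⊕ κ)} (h : Skw A) : Skw (cK κ * A * cK κ) := fun v w => by
  have k := fun v w => (cK_trn (κ := κ) ▸ Eqv71.inner_trn (cK κ) v w :)
  simp only [mul_apply_eq_comp, k, h _]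

theorem cK_comm {A : En (κ ⊕ κ)} (h : iL κ * A = A * iL κ) :
    iL κ * (cK κ * A * cK κ) = cK κ * A * cK κ * iL κ := by
  have e : iL κ = -(cK κ * iL κ * cK κ) := by rw [cK_J, neg_neg]
  have k : ∀ T, cK κ * (cK κ * T) = T := fun T => by rw [← mul_assoc, cK_sq, one_mul]
  conv_lhs => rw [e]
  conv_rhs => rw [e]
  simp only [neg_mul, mul_neg, mul_assoc, k]
  rw [← mul_assoc (iL κ), h, mul_assoc]

theorem tr_cK (T : En (κ ⊕ κ)) : trE (iL κ * (cK κ * T * cK κ)) = -trE (iL κ * T) := by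
  rw [← mul_assoc, Wz78.trE_comm, ← mul_assoc, ← mul_assoc, cK_J, neg_mul, map_neg]

theorem tr_J (A : Matrix κ κ ℂ) : trE (iL κ * rl A) = -2 * A.trace.im := by
  rw [Wz78.trE_eq, ContinuousLinearMap.mul_def, ← Line51.rl_I_smul, Line51.rl_trace]
  simp

end cj

variable {E : Type} [NormedAddCommGroup E] [NormedSpace ℝ E] [FiniteDimensional ℝ E]
  [MeasurableSpace E] [BorelSpace E]
  {HM : Type} [TopologicalSpace HM] {I : ModelWithCorners ℝ E HM} [I.Boundaryless]
  {M : Type} [TopologicalSpace M] [ChartedSpace HM M] [IsManifold I ∞ M] [MeasurableSpace M]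
  {ι κ lam ν : Type} [Fintype ι] [Fintype κ] [Fintype lam] [DecidableEq ι] [DecidableEq κ]
  [Fintype ν]

theorem th_unc {s : M → Matrix (κ × κ) Unit ℂ} {y : M} (h : MSm I s y) (v : E) :
    Num57.e1 (Line51.th I s y) v =
      -trE (iL κ * (trn (rl (unc s y)) * rl (Line51.dm I (unc s) y v))) / 8 := by
  have k0 : MSm I (fun z => mat (s z)) y := fun a b => h (a, b) ()
  have e3 := Line51.dm_smul (g := fun _ => (2 : ℂ)) contMDiffAt_const k0 v
  rw [Line51.dc_const, _root_.zero_apply, zero_smul, zero_add] at e3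
  have e4 := vec_ct_mul (mat (s y)) (Line51.dm I (fun z => mat (s z)) y v)
  rw [Line51.e1_th, ← Line51.rl_ct, ← Line51.rl_mul, tr_J,
    show Line51.dm I (unc s) y v = _ from e3, show (s y)ᴴ * Line51.dm I s y v = _ from e4, unc,
    Matrix.conjTranspose_smul, Matrix.smul_mul, Matrix.mul_smul, Matrix.trace_smul, Matrix.trace_smul]
  generalize ((mat (s y))ᴴ * Line51.dm I (fun z => mat (s z)) y v).trace = z
  simp [Matrix.trace]
  ring

/-- a compatible connection at a point -/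
structure CA (F : Fr I M ι) (p : M → En ν) (ρ A : ι → M → En ν) (x : M) : Prop where
  sp : SA I p x
  sρ : ∀ a, SA I (ρ a) x
  par : ∀ a, dv I (F.e a) p x + (A a x * p x - p x * A a x) = 0
  comp : ∀ a b, dv I (F.e a) (ρ b) x + (A a x * ρ b x - ρ b x * A a x) = ∑ k, F.Gam a b k x • ρ k x

section dif
variable [DecidableEq ν] {F : Fr I M ι} {p q u : M → En ν} {ρ σ A W : ι → M → En ν} {J J' : En ν}
  {x : M}

theorem mul_src {p u : En ν} (h : trn u ∘L u = p) (hp : p * p = p) (hs : Sym p) : u * p = u := by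
  have h' : trn u * u = p := h
  have : star (u * p - u) * (u * p - u) = 0 := by
    rw [star_sub, star_mul, show star p = p from Eqv71.trn_of_sym hs, show star u = trn u from rfl, sub_mul,
      mul_sub, mul_sub, mul_assoc p, ← mul_assoc (trn u), h', mul_assoc p, h', hp, hp, sub_self]
  exact sub_eq_zero.1 ((CStarRing.star_mul_self_eq_zero_iff _).1 this)

theorem dif_eq {P : ι → ι → ℝ} {o : ι → ι → ι → ι → ℝ} (C : CA F p ρ A x) (D : CA F q σ W x)
    (su : SA I u x) (h8 : Taub88.P8 P o (p x) J fun a => ρ a x) (a : ι) (sk : Skw (A a x))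
    (sk' : Skw (W a x)) (AJ : J * A a x = A a x * J) (WJ : J' * W a x = W a x * J') (J's : Skw J')
    (σs : ∀ b, Skw (σ b x)) (uu : ∀ᶠ y in 𝓝 x, trn (u y) ∘L u y = p y)
    (uu' : u x ∘L trn (u x) = q x) (up : ∀ᶠ y in 𝓝 x, u y * p y = u y)
    (qu : ∀ᶠ y in 𝓝 x, q y * u y = u y) (hJ : ∀ᶠ y in 𝓝 x, u y * J = J' * u y)
    (hρ : ∀ b, ∀ᶠ y in 𝓝 x, σ b y * u y = u y * ρ b y) :
    F.D a u x + W a x * u x - u x * A a x = (-Wz78.trE (J * (trn (u x) *
      (F.D a u x + W a x * u x - u x * A a x))) / 8) • (u x * (J * p x)) := by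
  have c := fun {f g : M → En ν} (h : ∀ᶠ y in 𝓝 x, f y = g y) => dv_congr (I := I) (e := F.e a) h
  have e1 := c up
  have e2 := c qu
  have e3 := c hJ
  have e4 := fun b => c (hρ b)
  have e5 := c (f := fun y => trn (u y) * u y) uu
  have p1 := eq_neg_of_add_eq_zero_left (C.par a)
  have p2 := eq_neg_of_add_eq_zero_left (D.par a)
  have u1 := up.self_of_nhds
  have u2 := qu.self_of_nhds
  have u3 := hJ.self_of_nhds
  have u4 := fun b => (hρ b).self_of_nhds
  have u5 : trn (u x) * u x = p x := uu.self_of_nhds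
  have u6 : u x * trn (u x) = q x := uu'
  rw [Wz78.dv_mul su C.sp, p1] at e1
  rw [Wz78.dv_mul D.sp su, p2] at e2
  rw [Wz78.dv_mul su contMDiffAt_const, Wz78.dv_mul contMDiffAt_const su, dv_const, dv_const] at e3
  rw [Wz78.dv_mul (Eqv71.sa_trn su) su, Eqv71.dv_trn su, p1] at e5
  simp only [Wz78.dv_mul (D.sρ _) su, Wz78.dv_mul su (C.sρ _), eq_sub_of_add_eq (C.comp a _),
    eq_sub_of_add_eq (D.comp a _), sub_mul, mul_sub, Finset.sum_mul, Finset.mul_sum,
    smul_mul_assoc, mul_smul_comm, u4] at e4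
  rw [Pre.D_def]
  generalize dv I (F.e a) u x = du at *
  set S := du + W a x * u x - u x * A a x with hS
  have t1 : S * p x = S := by
    rw [hS, sub_mul, add_mul, mul_assoc, u1]
    conv_rhs => rw [← e1, mul_neg, mul_sub, ← mul_assoc _ (p x), u1]
    noncomm_ring
  have t2 : q x * S = S := by
    rw [hS, mul_sub, mul_add, ← mul_assoc (q x) (u x), u2]
    conv_rhs => rw [← e2, neg_mul, sub_mul, mul_assoc _ (q x), u2]
    noncomm_ring
  have t3 : J' * S = S * J := by
    simp only [Pi.zero_apply, mul_zero, zero_mul, add_zero, zero_add] at e3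
    rw [hS, mul_sub, mul_add, sub_mul, add_mul, e3, ← mul_assoc, WJ, mul_assoc, ← u3, ← mul_assoc,
      ← mul_assoc, ← u3, mul_assoc (u x), AJ, mul_assoc (u x)]
  have t4 : ∀ b, σ b x * S = S * ρ b x := fun b => by
    have := e4 b
    rw [mul_assoc (W a x), u4, ← mul_assoc (u x) (ρ b x)] at this
    rw [hS, mul_sub, ← mul_assoc _ (u x), u4]
    linear_combination (norm := noncomm_ring) this
  have k : ∀ {a a' : En ν}, Skw a → Skw a' → a' * u x = u x * a → trn (u x) * a' = a * trn (u x) :=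
    fun h h' e => by
      have := congrArg trn e
      rwa [Wz78.trn_mul, Wz78.trn_mul, Eqv71.trn_of_skw h, Eqv71.trn_of_skw h', mul_neg, neg_mul, neg_inj] at this
  have t5 : trn (trn (u x) * S) = -(trn (u x) * S) := by
    have : trn S = trn du - trn (u x) * W a x + A a x * trn (u x) := by
      show star S = star du - star (u x) * W a x + A a x * star (u x)
      rw [hS, star_sub, star_add, star_mul, star_mul, show star (A a x) = _ from Eqv71.trn_of_skw sk,
        show star (W a x) = _ from Eqv71.trn_of_skw sk']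
      noncomm_ring
    rw [Wz78.trn_mul, this, Eqv71.trn_trn, hS, mul_sub, ← mul_assoc _ (u x), u5, add_mul,
      mul_assoc (A a x), u5]
    linear_combination (norm := noncomm_ring) e5
  have e := schur_sk h8 (T := trn (u x) * S)
    (fun v w => by rw [← Eqv71.inner_trn', t5, neg_apply, inner_neg_right])
    (fun b => by rw [mul_assoc, ← t4, ← mul_assoc, k (h8.ρs b) (σs b) (u4 b), mul_assoc])
    (by rw [← mul_assoc, ← k h8.Js J's u3.symm, mul_assoc, t3, mul_assoc]) (by rw [mul_assoc, t1])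
  rw [Wz78.trE_eq, ← mul_smul_comm]
  exact t2.symm.trans (by rw [← u6, mul_assoc]; exact congrArg _ e)

end dif

variable {F : Fr I M ι} {x : M}

theorem CA.conj {p : M → En ν} {ρ A : ι → M → En ν} {K : En ν} (h : CA F p ρ A x) (hK : K * K = 1) :
    CA F (fun y => K * p y * K) (fun a y => K * ρ a y * K) (fun a y => K * A a y * K) x := by
  have c : SA I (fun _ : M => K) x := contMDiffAt_const
  have k : ∀ {f : M → En ν} (a), SA I f x →
      dv I (F.e a) (fun y => K * f y * K) x = K * dv I (F.e a) f x * K := fun a hf => by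
    rw [Wz78.dv_mul (c.mul hf) c, Wz78.dv_mul c hf, dv_const]; simp
  have k2 : ∀ S T, K * S * K * (K * T * K) = K * (S * T) * K := fun S T => by
    simp only [mul_assoc]; rw [← mul_assoc K K, hK, one_mul]
  refine ⟨(c.mul h.sp).mul c, fun a => (c.mul (h.sρ a)).mul c, fun a => ?_, fun a b => ?_⟩
  · rw [k a h.sp, k2, k2, ← sub_mul, ← add_mul, ← mul_sub, ← mul_add, h.par, mul_zero, zero_mul]
  · rw [k a (h.sρ b), k2, k2, ← sub_mul, ← add_mul, ← mul_sub, ← mul_add, h.comp]
    simp only [Finset.mul_sum, Finset.sum_mul, mul_smul_comm, smul_mul_assoc]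

variable [BorelSpace M] [SecondCountableTopology M] {B : Base M ι lam} {m : C8 M ι κ} {O : Set M}

theorem p8_on (hB : B.OK I) {m : M8 M ι ν} (h : m.On I B.P O) (hx : x ∈ O) :
    Taub88.P8 (fun i j => B.P i j x) (fun i j k l => B.o i j k l x) (m.p x) m.J fun i => m.ρ i x :=
  ⟨⟨hB.pr x, Wz78.exists_on (hB.pr x) (hB.rk x) (hB.o12 · · · · x) (hB.o23 · · · · x)
    (hB.o34 · · · · x) (hB.oP · · · · x) (hB.onm x), h.cl x hx, h.psym x hx,
    fun a => h.ρsk a x hx, h.Jsk, fun a => h.Jρ a x hx, h.Jp x hx,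
    by rw [h.Jsq, neg_one_mul]⟩, h.prk x hx⟩

/-- **the curvature of the determinant line** -/
theorem det_cur (hB : B.OK I) (hO : IsOpen O) (h : m.On I (fun x => .of fun a b => B.P a b x) O)
    {A : ι → M → En (κ ⊕ κ)} (sA : ∀ a, ∀ x ∈ O, SA I (A a) x)
    (pA : ∀ a, ∀ x ∈ O, ∑ b, F.P a b x • A b x = A a x)
    (cA : ∀ x ∈ O, CA F m.re.p m.re.ρ A x) (kA : ∀ a, ∀ x ∈ O, Skw (A a x))
    (jA : ∀ a, ∀ x ∈ O, iL κ * A a x = A a x * iL κ) : ∃ α, Ln.On I ⟨m.det, α⟩ O ∧ ∀ x ∈ O, ∀ a b,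
      k2 F (Ln.F I ⟨m.det, α⟩) a b x = -trE (iL κ * rl (m.p x) * curv I F.e F.c A a b x) / 4 := by
  let β : ι → M → ℝ := fun a x => -trE (iL κ * rl (m.p x) * A a x) / 4
  have sβ : ∀ a, ∀ x ∈ O, SA I (β a) x := fun a x hx => (SA.clm trE (SA.mul (SA.mul contMDiffAt_const
    (cA x hx).sp) (sA a x hx))).neg.div_const _
  have kβ : ∀ a, ∀ x ∈ O, k1 F (fm1 F β) a x = β a x := fun a x hx => by
    simp only [Num57.k1_fm1, β]
    conv_rhs => rw [← pA a x hx]
    simp only [Finset.mul_sum, mul_smul_comm, map_sum, map_smul, smul_eq_mul, neg_div, Finset.sum_div,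
      mul_neg, Finset.sum_neg_distrib, mul_div_assoc]
  have D := h.det
  have L : Ln.On I ⟨m.det, fm1 F β⟩ O :=
    ⟨D.sm, D.prj, D.tr, fun x hx => Num57.smAt_fm1 F (sβ · x hx), fun x _ => Num57.deg_fm1 F β x⟩
  refine ⟨_, L, fun x hx a b => ?_⟩
  obtain ⟨V, s, α, h1, h2, hV, h4, h5, h6, h7⟩ := L.exists_pot hO hx
  have i := ci_unc (h.bar.mono hV) (h.mono hV) h4.toUni
  have ev := h1.eventually_mem h2
  have mb : m.bar.re.On I B.P O := h.bar.re
  have m0 : m.re.On I B.P O := h.re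
  have ep : ∀ y, m.bar.re.p y = cK κ * rl (m.p y) * cK κ := fun y => rl_cj _
  have eρ : ∀ a y, m.bar.re.ρ a y = cK κ * rl (m.ρ a y) * cK κ := fun a y => rl_cj _
  set u : M → En (κ ⊕ κ) := fun y => rl (unc s y) with hu
  have uu : ∀ y ∈ V, trn (u y) * u y = cK κ * rl (m.p y) * cK κ := fun y hy =>
    (i.re hy).2.1.trans (ep y)
  have uu' : ∀ y ∈ V, u y * trn (u y) = rl (m.p y) := fun y hy => (i.re hy).2.2.1
  have uJ : ∀ y ∈ V, u y * iL κ = iL κ * u y := fun y hy => (i.re hy).2.2.2.1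
  have up : ∀ y ∈ V, u y * (cK κ * rl (m.p y) * cK κ) = u y := fun y hy =>
    mul_src (uu y hy) (ep y ▸ mb.pidem y (hV hy)) (ep y ▸ mb.psym y (hV hy))
  have t1 : ∀ y ∈ V, ∀ T, trE (iL κ * (trn (u y) * (T * u y))) = trE (iL κ * rl (m.p y) * T) :=
    fun y hy T => by
      rw [← mul_assoc, ← mul_assoc, Wz78.trE_comm, ← mul_assoc, ← mul_assoc, uJ y hy, mul_assoc (iL κ),
        uu' y hy]
  have t2 : ∀ y ∈ V, ∀ T, trE (iL κ * (trn (u y) * (u y * (cK κ * T * cK κ)))) =
      -trE (iL κ * rl (m.p y) * T) := fun y hy T => by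
    rw [← mul_assoc (trn _), uu y hy, mul_assoc (iL κ), ← tr_cK]
    simp only [mul_assoc]
    rw [← mul_assoc (cK κ) (cK κ), cK_sq, one_mul]
  have key : ∀ y ∈ V, Eqv71.Itw I F.e (fun a y => cK κ * A a y * cK κ + k1 F α a y • iL κ) A u y :=
    fun y hy a => by
      have ey := h1.eventually_mem hy
      have C := cA y (hV hy)
      have k := dif_eq (C.conj cK_sq) C (i.re hy).1
        (by have := p8_on hB mb (hV hy); simp only [ep, eρ] at this; exact this) a
        (cK_skw (kA a y (hV hy))) (kA a y (hV hy))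
        (cK_comm (jA a y (hV hy))) (jA a y (hV hy)) Line51.iL_skw (fun b => m0.ρsk b y (hV hy))
        (ey.mono uu)
        (uu' y hy) (ey.mono up) (ey.mono fun z hz => by
          rw [show m.re.p z = _ from (uu' z hz).symm, mul_assoc, uu z hz, up z hz]) (ey.mono uJ)
        fun b => ey.mono fun z hz => (((i.re hz).2.2.2.2 b).symm.trans (congrArg _ (eρ b z)))
      have e1 : k1 F α a y = -trE (iL κ * (trn (u y) * F.D a u y)) / 8 + β a y := by
        rw [← kβ a y (hV hy), k1, show α y = _ from (h4.par y hy).symm, Num57.e1_add, th_unc (h4.toUni.sm y hy),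
          Pre.D_def, hu, Line51.dv_rl (i.sm y hy)]
        rfl
      change F.D a u y + A a y * u y = u y * (cK κ * A a y * cK κ + k1 F α a y • iL κ)
      change F.D a u y + A a y * u y - u y * (cK κ * A a y * cK κ) = (-trE (iL κ * (trn (u y) *
        (F.D a u y + A a y * u y - u y * (cK κ * A a y * cK κ)))) / 8) •
          (u y * (iL κ * (cK κ * rl (m.p y) * cK κ))) at k
      rw [mul_sub (trn _), mul_add (trn _), mul_sub, mul_add, map_sub, map_add, t1 y hy, t2 y hy,
        cK_comm (Line51.iL_mul _), ← mul_assoc (u y) _ (iL κ), up y hy, sub_eq_iff_eq_add'] at k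
      rw [k, mul_add, mul_smul_comm, e1]
      congr 2
      simp only [β]
      ring
  have sα := fun a => Num57.sa_k1 F (h5 x h2) a
  have c : SA I (fun _ : M => cK κ) x := contMDiffAt_const
  have k := Eqv71.itw_curv (frm F) (ev.mono key) (i.re h2).1 (fun a => ((c.mul (sA a x hx)).mul c).add
    ((sα a).smul contMDiffAt_const)) (sA · x hx) a b
  have e2 : curv I F.e F.c (fun a y => cK κ * A a y * cK κ + k1 F α a y • iL κ) a b x =
      cK κ * curv I F.e F.c A a b x * cK κ + k2 F (dM I α) a b x • iL κ := by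
    have k1' : ∀ a b, dv I (F.e a) (fun y => cK κ * A b y * cK κ + k1 F α b y • iL κ) x =
        cK κ * dv I (F.e a) (A b) x * cK κ + F.D a (k1 F α b) x • iL κ := fun a b => by
      rw [Wz78.dv_add' ((c.mul (sA b x hx)).mul c) ((sα b).smul contMDiffAt_const),
        Wz78.dv_mul (c.mul (sA b x hx)) c, Wz78.dv_mul c (sA b x hx),
        dv_smul (sα b).md mdifferentiableAt_const, dv_const, dv_const]
      simp [Pre.D_def]
    have k2' : ∀ S T, cK κ * S * cK κ * (cK κ * T * cK κ) = cK κ * (S * T) * cK κ := fun S T => by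
      simp only [mul_assoc]; rw [← mul_assoc (cK κ) (cK κ), cK_sq, one_mul]
    have k3 := fun a => cK_comm (jA a x hx)
    rw [Num57.k2_dM F (h5 x h2) (ev.mono h6)]
    simp only [curv, k1', add_mul, mul_add, k2', smul_mul_assoc, mul_smul_comm, k3, mul_sub, sub_mul,
      Finset.mul_sum, Finset.sum_mul, smul_add, Finset.sum_add_distrib, sub_smul, Finset.sum_smul,
      smul_smul]
    module
  have e3 := congrArg (fun T => trE (iL κ * (trn (u x) * T))) k
  simp only [e2, ← ContinuousLinearMap.mul_def, mul_add, mul_smul_comm, map_add, map_smul,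
    t1 x h2, t2 x h2] at e3
  rw [← mul_assoc (trn _), uu x h2, ← cK_comm (Line51.iL_mul _), ← mul_assoc, Line51.iL_sq,
    neg_one_mul, map_neg, ← ep, Wz78.trE_eq (m.bar.re.p x), mb.prk x hx, smul_eq_mul] at e3
  rw [k2, h7 h2, ← k2]
  linarith

end Crest.Agent.X212.Qmd96
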