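import Crest.Agent.X212.Abel74.Iso
import Crest.Agent.X212.Pj41.Grl
import Crest.Agent.X212.Spn45.Aff
import Crest.Agent.X212.Idg99.Tr

/-!
# Row 212, QA-MOD (helper96): a half of a module over an open set is parallel for some connection
-/

set_option autoImplicit false
set_option linter.unusedSectionVars false
noncomputable section
open scoped Manifold ContDiff Topology InnerProductSpace
open Set Function Filter

namespace Crest.Agent.X212.Qmd96
open An Wz78 Sob92 Pj41
open Abel74 (Red RedOn hf fF hf_hf hf_sym p_hf rho_hf J_hf)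

variable {E : Type} [NormedAddCommGroup E] [NormedSpace ℝ E] [FiniteDimensional ℝ E]
  [MeasurableSpace E] [BorelSpace E]
  {HM : Type} [TopologicalSpace HM] {I : ModelWithCorners ℝ E HM} [I.Boundaryless]
  {M : Type} [TopologicalSpace M] [ChartedSpace HM M] [IsManifold I ∞ M] [T2Space M]
  [MeasurableSpace M] [BorelSpace M] [SecondCountableTopology M]
  {ι : Type} [Fintype ι] {lam : Type} [Fintype lam]
  {m : Md M ι lam} {B : Base M ι lam} {G : Geo I M ι lam} {W : m.Cn} {ξ : M → m.A} {x : M}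
  (hB : B.OK I) (hG : G.OK B)
include hB hG

section glob
variable (H : m.OK I B)
include H

/-- a unit section of `g` is parallel for some admissible connection -/
theorem exists_red (sm : An.Sm I ξ) (mem : ∀ x, ξ x ∈ m.gS x)
    (sq : ∀ x, opL (ξ x) * opL (ξ x) = -m.p x) : ∃ W, m.IsConn B G W ∧ Red G.F m W ξ := by
  obtain ⟨W, C⟩ := Spn45.exists_conn hB hG H
  have s := fun x => SA.clm opL (sm x)
  let D : m.Cn := fun a x => opL (nab I G.F.e (m.adW W) a ξ x)
  have g := fun a x => nab_mem_g H C a (sm x) mem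
  have an : ∀ a x, opL (ξ x) * D a x = -(D a x * opL (ξ x)) := fun a x => by
    have := nabE_mul (e := G.F.e) (A := W) a (s x) (s x)
    simp only [sq, opL_nab a (sm x)] at this
    rw [show nabE I G.F.e W a (fun y => -m.p y) x = -nabE I G.F.e W a m.p x from
      nab_neg (A := fun a y => Wz78.ad _ (W a y)) a _,
      show nabE I G.F.e W a m.p x = 0 from C.cc.par a x, neg_zero] at this
    exact eq_neg_of_add_eq_zero_right this.symm
  have c : ∀ {T : En (Fin m.N)} {a x}, T * D a x = D a x * T → T * opL (ξ x) = opL (ξ x) * T →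
      T * ((1 / 2 : ℝ) • (D a x * opL (ξ x))) = (1 / 2 : ℝ) • (D a x * opL (ξ x)) * T :=
    fun h1 h2 => ((Commute.mul_right h1 h2).smul_right _).eq
  have C' := Spn45.isConn_add C (β := fun a x => (1 / 2 : ℝ) • (D a x * opL (ξ x)))
    ⟨fun a x => SA.smul contMDiffAt_const ((SA.clm opL ((gfrm hG).sN
        (fun a => (con_adW C).sm a x) a (sm x))).mul (s x)), fun a x => by
      simp only [D]
      rw [← (gfrm hG).projN (con_adW C) a ξ x]
      simp only [map_sum, map_smul, Finset.sum_mul, Finset.smul_sum, smul_mul_assoc,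
        smul_comm (1 / 2 : ℝ)]⟩
    (fun a x => (Spn45.skS _).smul_mem _ fun v w => by
      rw [mul_apply_eq_comp, g_skw (g a x), g_skw (mem x), neg_neg, ← mul_apply_eq_comp, an,
        neg_apply, inner_neg_right])
    (fun a x => (c (by rw [g_p (g a x), g_p' H (g a x)]) (by rw [g_p (mem x), g_p' H (mem x)])).symm)
    (fun a b x => (c (g_ρ (g a x) b) (g_ρ (mem x) b)).symm) (fun a x => c (g_J (g a x)) (g_J (mem x)))
    fun a x s => (c (g_j (g a x) s) (g_j (mem x) s)).symm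
  refine ⟨_, C', sm, mem, sq, fun a x => opL_inj ?_⟩
  have e := opL_nab (e := G.F.e) (W := W) a (sm x)
  rw [← opL_nab a (sm x), map_zero]
  simp only [nabE, Pi.add_apply, add_mul, mul_add, smul_mul_assoc, mul_smul_comm] at e ⊢
  rw [← mul_assoc, an, neg_mul, mul_assoc, sq, mul_neg, g_p' H (g a x), eq_sub_of_add_eq e]
  module

theorem tr_Jg {η : m.A} (k : η ∈ m.gS x) : trE (m.J * opL η) = 0 := by
  have := congrArg (fun ζ => ⟪η, ζ⟫_ℝ) (pg_Jp (x := x) hB H)
  simp only [inner_zero_right, ← inner_pg, pg_of_mem k, inner_skw (g_skw k), ← mul_assoc,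
    neg_eq_zero] at this
  rwa [trE_comm, ← mul_assoc, g_p k, trE_comm] at this

/-- the trace of the curvature on the half (`Idg99.kf_pt`) -/
theorem tr_half (C : m.IsConn B G W) (k : ξ x ∈ m.gS x) (a b : ι) :
    -trE (m.J * hf m x (ξ x) * curv I G.F.e G.F.c W a b x) / 4 =
      fL B G x (a, b) + 2 * fF G.F m W ξ a b x := by
  have k' := Fg_mem (W := W) (x := x) G.F (a, b)
  have hp : hf m x (ξ x) * m.p x = hf m x (ξ x) := by
    rw [← Abel74.hf_comm H k rfl (H.Jp x).symm (by rw [g_p k, g_p' H k]), p_hf H k]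
  have h0 : trE (hf m x (ξ x)) = 8 := by
    rw [hf, map_smul, map_sub, tr_Jg hB hG H k, Abel74.tr_p H]; norm_num
  have h1 : trE (_ * _) = 0 := Idg99.tr_spin (tr := trE.toLinearMap) trE_comm
    (T := m.J * hf m x (ξ x)) (ρ := fun a => m.ρ a x) (fun a => by
      rw [mul_assoc, ← rho_hf H k, ← mul_assoc, H.Jρ, mul_assoc])
    ((lc_gam G.F).Rm_s34 (frm G.F) a b · · x)
  have h2 := congrArg (fun T => trE (m.J * hf m x (ξ x) * T)) (tw_eq hB hG H C a b x)
  have h3 : m.J * hf m x (ξ x) * (m.J * m.p x) = -hf m x (ξ x) := by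
    rw [mul_assoc, ← mul_assoc _ m.J, ← J_hf H k, ← mul_assoc, ← mul_assoc, H.Jsq, neg_one_mul,
      neg_mul, hp]
  have h4 : trE (m.J * hf m x (ξ x) * opL (m.Fg G.F W x (a, b))) = -8 * fF G.F m W ξ a b x := by
    rw [fF, real_inner_comm, ← hsL_opL (m.Fg G.F W x (a, b)), inner_skw (g_skw k), opL_hsL]
    simp only [hf, mul_smul_comm, smul_mul_assoc, mul_sub, sub_mul, ← mul_assoc, H.Jsq, map_smul,
      map_sub, neg_mul, one_mul, map_neg, smul_eq_mul]
    rw [mul_assoc, g_p k', tr_Jg hB hG H k']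
    ring
  simp only [tw, mul_sub, mul_add, mul_smul_comm, map_sub, map_add, map_smul, h3, h4, map_neg,
    h0, trE_comm _ (spin _ _), h1, C.cc.curv_p (gfrm hG), smul_eq_mul] at h2
  rw [← mul_assoc, mul_assoc m.J, hp] at h2
  linarith

end glob

variable {O : Set M} (hO : IsOpen O) (H : OKOn I B m O)
include hO H

theorem res_md : (cmM (Subtype.val : (⟨O, hO⟩ : TopologicalSpace.Opens M) → M) m).OK I
    (cmB Subtype.val B) :=
  okOn_univ.1 (cmM_okOn (fun _ _ => contMDiff_subtype_val _) (fun y _ => y.2) H)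

theorem exists_redOn (sm : ∀ x ∈ O, SA I ξ x) (mem : ∀ x ∈ O, ξ x ∈ m.gS x)
    (sq : ∀ x ∈ O, opL (ξ x) * opL (ξ x) = -m.p x) :
    ∃ W, ConnOn B G m W O ∧ RedOn G.F m W O ξ ∧ ∀ x ∈ O,
      (∀ a, nabE I G.F.e W a (fun y => hf m y (ξ y)) x = 0) ∧ ∀ a b,
      -trE (m.J * hf m x (ξ x) * curv I G.F.e G.F.c W a b x) / 4 =
        fL B G x (a, b) + 2 * fF G.F m W ξ a b x := by
  have H' := res_md hB hG hO H
  set U : TopologicalSpace.Opens M := ⟨O, hO⟩
  obtain ⟨hB', hG'⟩ := res_ok U hB hG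
  have R : FRel (resG U G).F G.F Subtype.val univ := cmF_rel (Cyl58.isOE_val U).loc _
  have g : GRel _ (resG U G) B G Subtype.val univ := R.gRel rfl fun _ _ _ => rfl
  have im : (Subtype.val : U → M) '' univ = O := by rw [image_univ]; exact Subtype.range_coe
  have mem' : ∀ y : U, ξ y ∈ (cmM Subtype.val m).gS y := fun y => by rw [cm_gS]; exact mem y y.2
  obtain ⟨V, C, T⟩ := exists_red hB' hG' H' (ξ := fun y : U => ξ y)
    (fun y => R.sm (u := ξ) trivial (sm y y.2)) (by exact mem') (by exact fun y => sq y y.2)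
  obtain ⟨W, rfl⟩ : ∃ W : m.Cn, V = fun a y => W a y.1 :=
    ⟨fun a => extend Subtype.val (V a) 0,
      funext₂ fun a y => (Subtype.val_injective.extend_apply _ _ y).symm⟩
  have k1 : ∀ (y : U) a, nab I G.F.e (m.adW W) a ξ y = 0 := fun y a => by
    rw [← R.nab (x := y) (A := fun a y => m.adW W a y.1) (u := fun y => ξ y) trivial a rfl
      (.of_forall fun _ => rfl)]
    exact T.par a y
  have k2 : ∀ (y : U) a, nabE I G.F.e W a (fun y => hf m y (ξ y)) y = 0 := fun y a =>
    (R.nab (x := y) (A := fun a y => Wz78.ad _ (W a y.1)) (A' := fun a y => Wz78.ad _ (W a y))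
      (u := fun y => hf m y (ξ y)) (u' := fun y => hf m y (ξ y)) trivial a rfl
      (.of_forall fun _ => rfl)).symm.trans (T.hf_par H' C a y)
  have k3 : ∀ (y : U) a b, -trE (m.J * hf m y (ξ y) * curv I G.F.e G.F.c W a b y) / 4 =
      fL B G y (a, b) + 2 * fF G.F m W ξ a b y := fun y a b => by
    have := tr_half hB' hG' H' C (ξ := fun y : U => ξ y) (x := y) (by exact mem' y) a b
    rw [fF, fL, R.Fg trivial, R.curv trivial (A' := W) fun _ => .of_forall fun _ => rfl,
      R.curv trivial (A := (resG U G).a) (A' := G.a) fun _ => .of_forall fun _ => rfl] at this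
    exact this
  exact ⟨W, im ▸ g.connOn_iff.1 (IsConn.on C _), ⟨sm, mem, sq, fun x hx => k1 ⟨x, hx⟩⟩,
    fun x hx => ⟨k2 ⟨x, hx⟩, k3 ⟨x, hx⟩⟩⟩

/-- **a half over an open set** -/
theorem exists_half {s : M → En (Fin m.N)}
    (s0 : ∀ x ∈ O, SA I s x) (s1 : ∀ x ∈ O, Sym (s x)) (s2 : ∀ x ∈ O, s x * s x = s x)
    (s3 : ∀ x ∈ O, m.p x * s x = s x) (s4 : ∀ x ∈ O, m.J * s x = s x * m.J)
    (s5 : ∀ x ∈ O, ∀ a, m.ρ a x * s x = s x * m.ρ a x)
    (s6 : ∀ x ∈ O, ∀ t, m.j x t * s x + s x * m.j x t = m.j x t) :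
    ∃ W ξ, ConnOn B G m W O ∧ RedOn G.F m W O ξ ∧ ∀ x ∈ O, (∀ a, nabE I G.F.e W a s x = 0) ∧ ∀ a b,
      -trE (m.J * s x * curv I G.F.e G.F.c W a b x) / 4 = fL B G x (a, b) + 2 * fF G.F m W ξ a b x := by
  have H' := res_md hB hG hO H
  set U : TopologicalSpace.Opens M := ⟨O, hO⟩
  have mem : ∀ y : U, hsL (m.J * ((2 : ℝ) • s y - m.p y)) ∈ (cmM Subtype.val m).gS y := fun y =>
    Abel74.mem_of_half H' (x := y) (π := s y) (s1 y y.2) (s3 y y.2) (s4 y y.2) (s5 y y.2) (s6 y y.2)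
  have e : ∀ y, hf m y (hsL (m.J * ((2 : ℝ) • s y - m.p y))) = s y := fun y => by
    simp only [hf, opL_hsL, ← mul_assoc, H.Jsq, neg_one_mul]
    module
  obtain ⟨W, h1, h2, h3⟩ := exists_redOn hB hG hO H
    (ξ := fun x => hsL (m.J * ((2 : ℝ) • s x - m.p x))) (fun x hx => SA.clm hsL
      (SA.mul contMDiffAt_const ((SA.smul contMDiffAt_const (s0 x hx)).sub (H.sp x hx))))
    (fun x hx => mem ⟨x, hx⟩) fun x hx => by
      have := congrArg trn (s3 x hx)
      rw [trn_mul, Sym.trn (s1 x hx), Sym.trn (H.psym x hx)] at this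
      have k := Abel74.sq_of_half H' (x := ⟨x, hx⟩) (π := s x) (s2 x hx) (s3 x hx) this (s4 x hx)
      simp only [opL_hsL]
      exact k
  simp only [e] at h3
  exact ⟨W, _, h1, h2, h3⟩

end Crest.Agent.X212.Qmd96
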