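import Crest.Agent.X212.Qab60.Props
import Crest.Agent.X212.Qmd96.Det
import Crest.Agent.X212.Qmd96.Red

/-!
# Row 212, QA-MOD (helper96): the reduction of a spin^c structure
-/

set_option autoImplicit false
set_option linter.unusedSectionVars false
noncomputable section
open scoped Manifold ContDiff Topology InnerProductSpace Matrix Real
open Set Function Filter

namespace Crest.Agent.X212.Qmd96
open An Wz78 Sob92 Pj41
open Lab56 (C8 LOn)
open Abel74 (RedOn fF fm)
open Line51 (Ln rl iL eb)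
open Num57 (k2)
open Dr59 (Ex)

section cg
variable {α β : Type} [Fintype α] [Fintype β] [DecidableEq α] [DecidableEq β] {e : CL (Eu α) (Eu β)}

theorem cj_apply (T : En α) : cjL e T = e ∘L T ∘L trn e := by rw [cjL_apply, ad_trn]

theorem cj_trn (T : En β) : cjL (trn e) T = trn e ∘L T ∘L e := by rw [cj_apply, Eqv71.trn_trn]

theorem tr_cj (h : trn e ∘L e = 1) (T : En α) : trE (cjL e T) = trE T := by
  rw [trE_eq, trE_eq, cj_apply, ContinuousLinearMap.toLinearMap_comp, LinearMap.trace_comp_comm',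
    ← ContinuousLinearMap.toLinearMap_comp, ContinuousLinearMap.comp_assoc, h]
  rfl

end cg

variable {E : Type} [NormedAddCommGroup E] [NormedSpace ℝ E] [FiniteDimensional ℝ E]
  [MeasurableSpace E] [BorelSpace E]
  {HM : Type} [TopologicalSpace HM] {I : ModelWithCorners ℝ E HM} [I.Boundaryless]
  {M : Type} [TopologicalSpace M] [ChartedSpace HM M] [IsManifold I ∞ M] [T2Space M]
  [MeasurableSpace M] [BorelSpace M] [SecondCountableTopology M]
  {ι κ lam : Type} [Fintype ι] [Fintype κ] [DecidableEq κ] [Fintype lam] [DecidableEq lam]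
  {O : Set M} {x : M}

theorem fsm_clm {α V : Type} [Fintype α] [DecidableEq α] [NormedAddCommGroup V] [NormedSpace ℝ V]
    {j : M → CL (Eu α) V} (h : ∀ s, FSm I (fun y => j y s) x) : FSm I j x := by
  have : j = fun y => ∑ i, ContinuousLinearMap.smulRightL ℝ (Eu α) V (EuclideanSpace.proj i)
      (j y (EuclideanSpace.single i 1)) := funext fun y => ContinuousLinearMap.ext fun s => by
    conv_lhs => rw [← eu_sum s]
    simp
  rw [this]
  exact FSm.sum' fun i _ => SA.clm _ (h _)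

theorem fsm_rb {l ν ν' : Type} [Fintype l] [DecidableEq l] [Fintype ν] [DecidableEq ν] [Fintype ν']
    [DecidableEq ν'] (b : OB κ ν) (c : OB l ν') {u : M → Matrix l κ ℂ} (h : MSm I u x) :
    FSm I (fun y => rb b c (u y)) x :=
  SA.clm (LinearMap.toContinuousLinearMap (rb b c ∘ₗ (Matrix.ofLinearEquiv ℝ).toLinearMap))
    (MSm.iff_pi.1 h)

theorem nabE_cj {α β : Type} [Fintype α] [Fintype β] [DecidableEq α] [DecidableEq β]
    {e : CL (Eu α) (Eu β)} (h : trn e ∘L e = 1) {v : ι → (x : M) → TangentSpace I x}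
    {W : ι → M → En β} {T : M → En α} (hT : SA I T x) (a : ι) :
    nabE I v (fun a y => cjL (trn e) (W a y)) a T x =
      cjL (trn e) (nabE I v W a (fun y => cjL e (T y)) x) := by
  have k : ∀ s, trn e (e s) = s := fun s => DFunLike.congr_fun h s
  rw [nabE, nabE, dv_clm _ hT.md]
  ext1 s
  simp [cj_apply, k]

theorem cj_em {ν : Type} [Fintype ν] [DecidableEq ν] (b : OB (κ ⊕ κ × lam) ν) (A : Matrix κ κ ℂ) :
    cjL (rb (eb (κ ⊕ κ)) b (em κ lam)) (rl A) = rb b b (Matrix.fromBlocks A 0 0 0) := by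
  rw [cj_apply, ← em_conj, rb_comp b (eb (κ ⊕ κ)) b, rb_comp (eb (κ ⊕ κ)) (eb (κ ⊕ κ)) b, rb_ct]
  rfl

/-- a module with a half `S` -/
structure Hf (B : Base M ι (lam ⊕ lam)) (S : C8 M ι κ) (m : Md M ι (lam ⊕ lam))
    (e : CL (Eu (κ ⊕ κ)) m.V) (O : Set M) : Prop where
  ok : OKOn I B m O
  ee : trn e ∘L e = 1
  J : m.J ∘L e = e ∘L iL κ
  p : ∀ x, m.p x ∘L e = e ∘L rl (S.p x)
  ρ : ∀ a x, m.ρ a x ∘L e = e ∘L rl (S.ρ a x)
  j : ∀ x ∈ O, ∀ t, m.j x t * cjL e (rl (S.p x)) + cjL e (rl (S.p x)) * m.j x t = m.j x t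

variable {B : Base M ι (lam ⊕ lam)} {S : C8 M ι κ}

/-- the module `S ⊕ S̄ ⊗ Λ` -/
@[reducible] def md {N : ℕ} (b : OB (κ ⊕ κ × lam) (Fin N)) (S : C8 M ι κ) (q : M → Matrix lam lam ℂ) :
    Md M ι (lam ⊕ lam) :=
  ⟨N, Jb b, fun x => rb b b (bl (q x) (S.p x)), fun a x => rb b b (bl (q x) (S.ρ a x)),
    fun x => jm b (S.p x) (q x)⟩

theorem md_ok [DecidableEq ι] {N : ℕ} (b : OB (κ ⊕ κ × lam) (Fin N)) {q : M → Matrix lam lam ℂ}
    (hq : LOn I q O) (hS : S.On I (fun x => .of fun a b => B.P a b x) O) (hl : ∀ x, B.l x = rl (q x))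
    (hi : B.il = iL lam) : OKOn I B (md b S q) O := by
  have H := fun x hx => pm_sum b (hS.pc x hx) (hq.prj x hx) (hq.tr x hx)
  have sb : ∀ {A : M → Matrix κ κ ℂ}, ∀ x ∈ O, MSm I A x → FSm I (fun y => rb b b (bl (q y) (A y))) x :=
    fun x hx h => fsm_rb b b (h.fromBlocks (.const _) (.const _) (h.ct.transpose.kron (hq.sm x hx)))
  refine ⟨J_sq b, J_skw b, fun x hx => sb x hx (hS.sp x hx), fun a x hx => sb x hx (hS.sρ a x hx),
    fun x hx => fsm_clm fun s => ?_,
    fun x hx => (H x hx).psym, fun x hx => (H x hx).pidem, fun x hx => (H x hx).prk,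
    fun x hx => (H x hx).Jp, fun x hx => (H x hx).cl, fun a x hx => (H x hx).ρsk a,
    fun a x hx => (H x hx).Jρ a, fun x hx => (H x hx).jsym, fun x hx => (H x hx).jJ,
    fun x hx => by rw [hi]; exact (H x hx).jil, fun x hx => by rw [hl]; exact (H x hx).jl,
    fun x hx => by rw [hl]; exact (H x hx).jsq, fun x hx => (H x hx).pj, fun a x hx => (H x hx).jρ a⟩
  have : MSm I (fun y => kc (Lab56.cj (S.p y)) (q y *ᵥ col s)) x := fun i j =>
    FSm.mul' ((hS.sp x hx).ct.transpose i.1 j)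
      (FSm.sum' fun a _ => FSm.mul' (hq.sm x hx i.2 a) contMDiffAt_const)
  simp only [jm_apply, tm_apply]
  exact SA.mul (fsm_rb b b (MSm.fromBlocks (.const _) this.transpose this (.const _)))
    contMDiffAt_const

theorem exists_hf [DecidableEq ι] {q : M → Matrix lam lam ℂ} (hq : LOn I q O)
    (hS : S.On I (fun x => .of fun a b => B.P a b x) O) (hl : ∀ x, B.l x = rl (q x))
    (hi : B.il = iL lam) : ∃ m e, Hf (I := I) B S m e O := by
  obtain ⟨N, ⟨b⟩⟩ : ∃ N, Nonempty (OB (κ ⊕ κ × lam) (Fin N)) :=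
    ⟨_, ⟨(eb _).reindex (Fintype.equivFin _).symm⟩⟩
  have e1 : ∀ (q : Matrix lam lam ℂ) A, rb b b (bl q A) ∘L rb (eb _) b (em κ lam) =
      rb (eb _) b (em κ lam) ∘L rl A := fun q A => by
    rw [← rb_comp, bl_em, rb_comp (eb _) (eb _), rb_eb]
  have e2 : trn (rb (eb _) b (em κ lam)) ∘L rb (eb _) b (em κ lam) = 1 := by
    rw [← rb_ct, ← rb_comp, em_em, rb_one]
  refine ⟨md b S q, rb (eb _) b (em κ lam), md_ok b hq hS hl hi, e2, rb_J (eb _) b _,
    fun x => e1 _ _, fun a x => e1 _ _, fun x hx t => ?_⟩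
  have := jm_half b (q := q x) (hS.pc x hx).prj t
  rw [← cj_em] at this
  exact this

variable {G : Geo I M ι (lam ⊕ lam)} {m : Md M ι (lam ⊕ lam)} {e : CL (Eu (κ ⊕ κ)) m.V}

/-- the reduction and the determinant line -/
theorem Hf.red [DecidableEq ι] (h : Hf (I := I) B S m e O) (hB : B.OK I) (hG : G.OK B) (hO : IsOpen O)
    (hS : S.On I (fun x => .of fun a b => B.P a b x) O) :
    ∃ W ξ α, ConnOn B G m W O ∧ RedOn G.F m W O ξ ∧ Ln.On I ⟨S.det, α⟩ O ∧ ∀ x ∈ O, ∀ a b,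
      k2 G.F (Ln.F I ⟨S.det, α⟩) a b x = fL B G x (a, b) + 2 * fF G.F m W ξ a b x := by
  have R : S.re.On I B.P O := hS.re
  have k : ∀ s, trn e (e s) = s := fun s => DFunLike.congr_fun h.ee s
  have ap : ∀ {T : En (Fin m.N)} {T' : En (κ ⊕ κ)}, T ∘L e = e ∘L T' → ∀ X,
      T * cjL e X = cjL e (T' * X) := fun h X => by
    rw [cj_apply, cj_apply, ContinuousLinearMap.mul_def, ← ContinuousLinearMap.comp_assoc, h]; rfl
  have ap' : ∀ {T : En (Fin m.N)} {T' : En (κ ⊕ κ)}, Skw T → Skw T' → T ∘L e = e ∘L T' →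
      trn e ∘L T = T' ∘L trn e := fun h1 h2 h => by
    have := congrArg trn h
    rwa [Eqv71.trn_comp, Eqv71.trn_comp, Skw.trn h1, Skw.trn h2, ContinuousLinearMap.comp_neg,
      ContinuousLinearMap.neg_comp, neg_inj] at this
  have aq : ∀ {T : En (Fin m.N)} {T' : En (κ ⊕ κ)}, Skw T → Skw T' → T ∘L e = e ∘L T' → ∀ X,
      cjL e X * T = cjL e (X * T') := fun h1 h2 h X => by
    rw [cj_apply, cj_apply, ContinuousLinearMap.mul_def, ContinuousLinearMap.comp_assoc,
      ContinuousLinearMap.comp_assoc, ap' h1 h2 h]; rfl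
  have mu : ∀ X Y, cjL e X * cjL e Y = cjL e (X * Y) := fun X Y => by
    ext1 s; simp [cj_apply, k]
  have pp : ∀ x ∈ O, rl (S.p x) * rl (S.p x) = rl (S.p x) := R.pidem
  have hJ : ∀ x, m.J * cjL e (rl (S.p x)) = cjL e (rl (S.p x)) * m.J := fun x => by
    rw [ap h.J, aq h.ok.Jsk Line51.iL_skw h.J, Line51.iL_mul]
  have sp : ∀ x ∈ O, SA I (fun y => cjL e (rl (S.p y))) x := fun x hx => SA.clm _ (R.sp x hx)
  obtain ⟨W, ξ, C, T, h3⟩ := exists_half hB hG hO h.ok sp
    (fun x hx v w => by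
      simp only [cj_apply, ContinuousLinearMap.comp_apply, ← Eqv71.inner_trn' e, ← Eqv71.inner_trn e]
      exact R.psym x hx _ _)
    (fun x hx => by rw [mu, pp x hx]) (fun x hx => by rw [ap (h.p x), pp x hx]) (fun x _ => hJ x)
    (fun x hx a => by
      rw [ap (h.ρ a x), aq (h.ok.ρsk a x hx) (R.ρsk a x hx) (h.ρ a x)]
      exact congrArg _ (((R.cl x hx).pr a).trans ((R.cl x hx).pl a).symm)) h.j
  have sA : ∀ a, ∀ x ∈ O, SA I (fun y => cjL (trn e) (W a y)) x := fun a x hx => SA.clm _ (C.sm a x hx)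
  obtain ⟨α, h1, h2⟩ := det_cur (F := G.F) (A := fun a y => cjL (trn e) (W a y)) hB hO hS sA
    (fun a x hx => by simp only [hG.P, ← map_smul, ← map_sum, C.proj a x hx])
    (fun x hx => ⟨R.sp x hx, (R.sρ · x hx),
      fun a => (nabE_cj h.ee (R.sp x hx) a).trans ((congrArg _ ((h3 x hx).1 a)).trans (map_zero _)),
      fun a b => (nabE_cj h.ee (R.sρ b x hx) a).trans (by
        have e0 : ∀ c, ∀ y ∈ O, cjL e (S.re.ρ c y) = m.ρ c y * cjL e (rl (S.p y)) := fun c y hy => by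
          rw [ap (h.ρ c y)]; exact congrArg _ ((R.cl y hy).pr c).symm
        rw [nabE_congr a (eventually_of_mem (hO.mem_nhds hx) (e0 b)),
          nabE_mul a (h.ok.sρ b x hx) (sp x hx), (h3 x hx).1, mul_zero, add_zero,
          show nabE I G.F.e W a (m.ρ b) x = _ from C.comp a b x hx]
        simp only [Finset.sum_mul, smul_mul_assoc, ← e0 _ x hx, map_sum, map_smul]
        refine Finset.sum_congr rfl fun c _ => congrArg _ (ContinuousLinearMap.ext fun s => ?_)
        simp [cj_apply, k])⟩)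
    (fun a x hx v w => by
      simp only [cj_trn, ContinuousLinearMap.comp_apply, Eqv71.inner_trn e, Eqv71.inner_trn' e]
      exact C.sk a x hx _ _)
    fun a x hx => by
      rw [cj_trn, ContinuousLinearMap.mul_def, ContinuousLinearMap.mul_def,
        ← ContinuousLinearMap.comp_assoc, ← ap' h.ok.Jsk Line51.iL_skw h.J,
        ContinuousLinearMap.comp_assoc, ContinuousLinearMap.comp_assoc, ContinuousLinearMap.comp_assoc,
        ← h.J, ← ContinuousLinearMap.comp_assoc m.J, ← ContinuousLinearMap.comp_assoc (W a x)]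
      exact congrArg (trn e ∘L · ∘L e) (C.J a x hx)
  refine ⟨W, ξ, α, C, T, h1, fun x hx a b => ?_⟩
  have su : ∀ y ∈ O, SA I (fun y => e ∘L rl (S.p y)) y := fun y hy =>
    FSm.cc contMDiffAt_const (R.sp y hy)
  have it : ∀ y ∈ O, Eqv71.Itw I G.F.e (fun a y => cjL (trn e) (W a y)) W
      (fun y => e ∘L rl (S.p y)) y := fun y hy a => by
    have e1 := congrArg (· ∘L e) ((h3 y hy).1 a)
    have s0 : SA I (fun y => rl (S.p y)) y := R.sp y hy
    have e2 := dv_clm (e := G.F.e a) (ContinuousLinearMap.compL ℝ _ _ _ e) s0.md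
    rw [nabE, dv_clm _ s0.md] at e1
    refine (congrArg (· + _) e2).trans (ContinuousLinearMap.ext fun s => ?_)
    have := DFunLike.congr_fun e1 s
    simp [cj_apply, k] at this ⊢
    exact eq_of_sub_eq_zero (by rw [← this]; abel)
  have c := Eqv71.itw_curv (frm G.F) (eventually_of_mem (hO.mem_nhds hx) it) (su x hx) (sA · x hx)
    (C.sm · x hx) a b
  rw [h2 x hx, ← (h3 x hx).2, trE_comm (m.J * _), hJ, ← mul_assoc, trE_comm _ m.J,
    show curv I G.F.e G.F.c W a b x * cjL e (rl (S.p x)) = cjL e (rl (S.p x) * _) by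
      rw [cj_apply, cj_apply, ContinuousLinearMap.mul_def, ← ContinuousLinearMap.comp_assoc e,
        ← ContinuousLinearMap.comp_assoc, c]; rfl, ap h.J, tr_cj h.ee, mul_assoc]

variable (I M ι lam) in
/-- **LEAF MOD** -/
theorem modStmt : Qab60.ModStmt I M ι lam := by
  classical
  rintro L F o _ Ω w h hL rfl hΩ ⟨ι', κ, _, _, _, _, d, hd, hw⟩
  have hB : (L.base F.P o).OK I := hL.base_ok F.P_sm h.sm (fun x => (h.vo x).pr) (fun x => (h.vo x).tr)
    (fun a b c d x => (h.vo x).a1 a b c d) (fun a b c d x => (h.vo x).a2 a b c d)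
    (fun a b c d x => (h.vo x).a3 a b c d) (fun a b c d x => (h.vo x).po a b c d)
    fun x => (h.vo x).nm
  have fa : ∀ x, Met55.FAt F.e x := fun x => ⟨fun a => F.sm a x, Met55.pre_sp F.toPre x⟩
  have hS : (d.tp F.e).On I (fun x => .of fun a b => (L.base F.P o).P a b x) Ω :=
    (hd.tp fun x _ => fa x).congr fun x _ => by ext a b; exact Met55.fr_P F a b x
  have hL' := hL.mono (subset_univ Ω)
  obtain ⟨m, e, H⟩ := exists_hf (LOn.of_ln hL') hS (fun _ => rfl) rfl
  obtain ⟨W, ξ, α, C, T, h1, h2⟩ := H.red hB (hL.geo_ok h.isv o) hΩ hS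
  refine ⟨m, W, ξ, H.ok, C, T, ?_⟩
  have z : ∀ {n : Type} [Fintype n] [DecidableEq n] {q : M → Matrix n n ℂ}, LOn I q Ω →
      Ln.On I (⟨q, 0⟩ : Ln E M n) Ω := fun k => ⟨k.sm, k.prj, k.tr, Dr59.Sm.zero, Dr59.Dg.zero⟩
  have e1 := Line51.Uni.ex_F (L := ⟨d.det, 0⟩) (L' := ⟨(d.tp F.e).det, α⟩) (u := d.det) hΩ
    ⟨hd.det.sm, fun x hx => by
      show PIso _ (d.det x) ((d.tp F.e).det x)
      rw [Lab56.det_tp hd hx (fa x).sp]; exact (hd.det.prj x hx).refl⟩ (z hd.det) h1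
  have e2 := Line51.Uni.ex_F (L := ⟨L.p, 0⟩) (L' := L) (u := L.p) hΩ
    ⟨hL'.sm, fun x hx => (hL'.prj x hx).refl⟩ (z (LOn.of_ln hL')) hL'
  refine (((e1.sub e2).add hw).smul (1 / 2)).congr fun x hx => ?_
  have e3 : fm F m W ξ x = ((1 / 2 : ℝ) • (Ln.F I ⟨(d.tp F.e).det, α⟩ - L.F I)) x := by
    rw [← Num57.fm2_k2 F ((((h1.cl_F hΩ).dg.sub (hL'.cl_F hΩ).dg).smul _) x hx), fm,
      Num57.fm2_apply, Num57.fm2_apply]
    refine Finset.sum_congr rfl fun a _ => Finset.sum_congr rfl fun b _ => ?_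
    have e4 : fL (L.base F.P o) (L.geo F) x (a, b) = k2 F (L.F I) a b x := by
      have c : curv I F.e F.c (L.geo F).a a b x * L.l x = k2 F (L.F I) a b x • (iL lam * L.l x) :=
        hL'.curv_geo hΩ F hx a b
      simp only [fL, trE_eq]
      rw [← trE_eq]
      show -(1 / 2) * trE (iL lam * curv I F.e F.c (L.geo F).a a b x * L.l x) = _
      rw [mul_assoc, c, mul_smul_comm, ← mul_assoc, Line51.iL_sq, neg_one_mul, map_smul, map_neg,
        show trE (L.l x) = 2 from (trE_eq _).trans (hB.lrk x), smul_eq_mul]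
      ring
    rw [Num57.k2_smul, Num57.k2_sub, show k2 F _ a b x = _ + 2 * fF F m W ξ a b x from h2 x hx a b, e4]
    congr 1
    ring
  simp only [Pi.sub_apply, Pi.add_apply, Pi.smul_apply, e3]
  module

end Crest.Agent.X212.Qmd96
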