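import Crest.Agent.X212.Lab56.Defs
import Crest.Agent.X212.Wz78.Hs
import Crest.Agent.X212.Eqv71.Alg

/-!
# Row 212, QA-MOD (helper96): the module `S ⊕ S̄ ⊗ Λ` at a point
-/

set_option autoImplicit false
set_option linter.unusedSectionVars false
set_option linter.unusedSimpArgs false

open Set Filter Topology Function Matrix
open scoped ContDiff Manifold InnerProductSpace Kronecker ComplexOrder
open Crest.Agent.X212.Pj41 Crest.Agent.X212.Lab56
open Crest.Agent.X212.An (Eu CL En Sym Skw trn)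
open Crest.Agent.X212.Wz78 (Cl trE)
open Crest.Agent.X212.Line51 (rl rm iL eb rm_apply)

noncomputable section

namespace Crest.Agent.X212.Qmd96

variable {κ l n ν ν' ν'' ι : Type} [Fintype κ] [Fintype l] [Fintype n] [DecidableEq κ]
  [DecidableEq l] [DecidableEq n] [Fintype ν] [Fintype ν'] [Fintype ν''] [DecidableEq ν]
  [DecidableEq ν'] [DecidableEq ν''] [Fintype ι]

/-- orthonormal bases indexed by real and imaginary parts -/
abbrev OB (κ ν : Type) [Fintype κ] [Fintype ν] : Type := OrthonormalBasis (κ ⊕ κ) ℝ (Eu ν)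

/-- the real operator of a complex matrix -/
def rb (b : OB κ ν) (c : OB l ν') : Matrix l κ ℂ →ₗ[ℝ] CL (Eu ν) (Eu ν') :=
  (mx b c).symm.toLinearMap ∘ₗ rm

section rb
variable (a : OB n ν'') (b : OB κ ν) (c : OB l ν')

theorem rb_apply (A : Matrix l κ ℂ) : rb b c A = (mx b c).symm (rm A) := rfl

theorem rb_eb : rb (eb (κ ⊕ κ)) (eb (l ⊕ l)) = rl := rfl

theorem rb_comp (A : Matrix l κ ℂ) (B : Matrix κ n ℂ) : rb a c (A * B) = rb b c A ∘L rb a b B := by
  rw [rb_apply, Line51.rm_mul, mx_symm_mul _ b]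
  rfl

theorem rb_mul (A B : Matrix κ κ ℂ) : rb b b (A * B) = rb b b A * rb b b B := rb_comp b b b A B

theorem rb_one : rb b b (1 : Matrix κ κ ℂ) = 1 := by
  rw [rb_apply, Line51.rm_one, LinearEquiv.symm_apply_eq, mx_one]

theorem rb_ct (A : Matrix l κ ℂ) : rb c b Aᴴ = trn (rb b c A) := by
  rw [rb_apply, Line51.rm_ct, mx_symm_ct, Line51.trn_eq_ad]
  rfl

theorem rb_trace (A : Matrix κ κ ℂ) :
    LinearMap.trace ℝ _ (rb b b A : Eu ν →ₗ[ℝ] Eu ν) = 2 * A.trace.re := by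
  rw [LinearMap.trace_eq_matrix_trace ℝ b.toBasis, ← Line51.rm_trace]
  exact congrArg _ ((mx b b).apply_symm_apply (rm A))

theorem sym_rb {A : Matrix κ κ ℂ} (h : Aᴴ = A) : Sym (rb b b A) := fun v w => by
  rw [← Eqv71.inner_trn', ← rb_ct, h]

theorem skw_rb {A : Matrix κ κ ℂ} (h : Aᴴ = -A) : Skw (rb b b A) := fun v w => by
  rw [← Eqv71.inner_trn', ← rb_ct, h, map_neg, _root_.neg_apply, inner_neg_right]

/-- multiplication by `i` -/
def Jb : En ν := rb b b (Complex.I • 1)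

theorem rb_I (A : Matrix l κ ℂ) : rb b c (Complex.I • A) = Jb c ∘L rb b c A := by
  rw [Jb, ← rb_comp, Matrix.smul_mul, Matrix.one_mul]

theorem rb_J (A : Matrix l κ ℂ) : Jb c ∘L rb b c A = rb b c A ∘L Jb b := by
  rw [← rb_I, Jb, ← rb_comp, Matrix.mul_smul, Matrix.mul_one]

theorem J_rb (A : Matrix κ κ ℂ) : Jb b * rb b b A = rb b b A * Jb b := rb_J b b A

theorem J_sq : Jb b * Jb b = -1 := by
  rw [Jb, ← rb_mul, Matrix.smul_mul, Matrix.one_mul, smul_smul, Complex.I_mul_I, neg_smul, one_smul,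
    map_neg, rb_one]

theorem J_skw : Skw (Jb b) := skw_rb b (by simp)

/-- complex conjugation -/
def Kb : En ν := (mx b b).symm (fromBlocks 1 0 0 (-1))

theorem rb_cj (A : Matrix κ κ ℂ) : rb b b (cj A) = Kb b * rb b b A * Kb b := by
  have : rm (cj A) = fromBlocks 1 0 0 (-1) * rm A * fromBlocks 1 0 0 (-1) := by
    rw [rm_apply, rm_apply, fromBlocks_multiply, fromBlocks_multiply]
    ext (i | i) (j | j) <;> simp
  rw [rb_apply, this, mx_symm_mul _ b, mx_symm_mul _ b]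
  rfl

theorem K_sq : Kb b * Kb b = 1 := by
  have := rb_cj b (1 : Matrix κ κ ℂ)
  rwa [cj, conjTranspose_one, transpose_one, rb_one, mul_one, eq_comm] at this

theorem K_rb (A : Matrix κ κ ℂ) : Kb b * rb b b A = rb b b (cj A) * Kb b := by
  rw [rb_cj, mul_assoc, K_sq, mul_one]

theorem K_J : Kb b * Jb b = -(Jb b * Kb b) := by
  rw [Jb, K_rb, ← neg_mul, ← map_neg]
  congr 2
  ext i j
  by_cases h : i = j <;> simp [h]

theorem K_trn : trn (Kb b) = Kb b := by
  rw [Line51.trn_eq_ad, Kb, ← mx_symm_ct]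
  congr 1
  ext (i | i) (j | j) <;> simp [Matrix.one_apply, eq_comm]

end rb

/-- the complex coordinates of a real vector -/
def col : Eu (l ⊕ l) →ₗ[ℝ] l → ℂ where
  toFun s i := ⟨s (.inl i), s (.inr i)⟩
  map_add' s t := by ext i; apply Complex.ext <;> simp
  map_smul' r s := by ext i; apply Complex.ext <;> simp

theorem rl_app (A : Matrix l l ℂ) (s : Eu (l ⊕ l)) (i : l ⊕ l) : rl A s i = ∑ j, rm A i j * s j := by
  conv_lhs => rw [← (eb (l ⊕ l)).sum_repr s]
  simp only [← Line51.mx_rl, mx_apply, map_sum, map_smul, EuclideanSpace.basisFun_inner,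
    EuclideanSpace.basisFun_repr, WithLp.ofLp_sum, WithLp.ofLp_smul, Finset.sum_apply, Pi.smul_apply,
    smul_eq_mul, mul_comm]

theorem col_rl (A : Matrix l l ℂ) (s : Eu (l ⊕ l)) : col (rl A s) = A *ᵥ col s := by
  ext i
  apply Complex.ext <;>
    simp [col, rl_app, rm_apply, mulVec, dotProduct, Fintype.sum_sum_type, Finset.sum_add_distrib,
      sub_eq_add_neg, add_comm]

theorem col_sq (s : Eu (l ⊕ l)) : star (col s) ⬝ᵥ col s = (‖s‖ ^ 2 : ℝ) := by
  rw [EuclideanSpace.real_norm_sq_eq]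
  apply Complex.ext <;>
    simp [col, dotProduct, Fintype.sum_sum_type, ← Finset.sum_add_distrib, sq, mul_comm]

theorem rank_one {q : Matrix l l ℂ} (hq : Prj q) (ht : q.trace = 1) {t : l → ℂ} (h : q *ᵥ t = t) :
    vecMulVec t (star t) = (star t ⬝ᵥ t) • q := by
  by_cases h0 : t = 0
  · simp [h0]
  have h1 : star t ⬝ᵥ t ≠ 0 := fun k => h0 (dotProduct_star_self_eq_zero.1 k)
  have h2 : star (star t ⬝ᵥ t) = star t ⬝ᵥ t := (star_dotProduct t t).symm
  rw [← Prj.eq_of_trace (r := (star t ⬝ᵥ t)⁻¹ • vecMulVec t (star t)) ⟨?_, ?_⟩ hq ?_ ?_, smul_smul,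
    mul_inv_cancel₀ h1, one_smul]
  · rw [conjTranspose_smul, star_inv₀, h2, conjTranspose_vecMulVec, star_star]
  · rw [Matrix.smul_mul, Matrix.mul_smul, vecMulVec_mul_vecMulVec, vecMulVec_smul, smul_smul,
      smul_smul, mul_assoc, inv_mul_cancel₀ h1, mul_one]
  · rw [Matrix.mul_smul, mul_vecMulVec, h]
  · rw [trace_smul, trace_vecMulVec, dotProduct_comm t, smul_eq_mul, inv_mul_cancel₀ h1, ht]

/-- a matrix tensor a column -/
def kc (A : Matrix κ n ℂ) (t : l → ℂ) : Matrix (κ × l) n ℂ := of fun a b => A a.1 b * t a.2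

theorem kron_kc (A : Matrix κ κ ℂ) (q : Matrix l l ℂ) (B : Matrix κ n ℂ) (t : l → ℂ) :
    (A ⊗ₖ q) * kc B t = kc (A * B) (q *ᵥ t) := by
  ext a b
  simp only [kc, mul_apply, Fintype.sum_prod_type, kroneckerMap_apply, of_apply, mulVec, dotProduct,
    Finset.sum_mul_sum]
  exact Finset.sum_congr rfl fun _ _ => Finset.sum_congr rfl fun _ _ => by ring

theorem kc_mul (A : Matrix κ κ ℂ) (t : l → ℂ) (B : Matrix κ n ℂ) : kc A t * B = kc (A * B) t := by
  ext a b
  simp only [kc, mul_apply, of_apply, Finset.sum_mul]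
  exact Finset.sum_congr rfl fun _ _ => by ring

theorem ct_kc (A : Matrix κ κ ℂ) (t : l → ℂ) : (kc A t)ᴴ * kc A t = (star t ⬝ᵥ t) • (Aᴴ * A) := by
  ext a b
  simp only [kc, mul_apply, Fintype.sum_prod_type, conjTranspose_apply, of_apply, dotProduct,
    Matrix.smul_apply, smul_eq_mul, Finset.sum_mul_sum, star_mul', Pi.star_apply]
  rw [Finset.sum_comm]
  exact Finset.sum_congr rfl fun _ _ => Finset.sum_congr rfl fun _ _ => by ring

theorem kc_ct (A : Matrix κ κ ℂ) (t : l → ℂ) :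
    kc A t * (kc A t)ᴴ = (A * Aᴴ) ⊗ₖ vecMulVec t (star t) := by
  ext a b
  simp only [kc, mul_apply, conjTranspose_apply, of_apply, kroneckerMap_apply, vecMulVec_apply,
    Finset.sum_mul, star_mul', Pi.star_apply]
  exact Finset.sum_congr rfl fun _ _ => by ring

/-- `A ⊕ Ā ⊗ q` -/
def bl (q : Matrix l l ℂ) : Matrix κ κ ℂ →ₗ[ℝ] Matrix (κ ⊕ κ × l) (κ ⊕ κ × l) ℂ where
  toFun A := fromBlocks A 0 0 (cj A ⊗ₖ q)
  map_add' A B := by ext (i | i) (j | j) <;> simp [add_mul]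
  map_smul' r A := by ext (i | i) (j | j) <;> simp [mul_assoc]

theorem bl_apply (q : Matrix l l ℂ) (A : Matrix κ κ ℂ) : bl q A = fromBlocks A 0 0 (cj A ⊗ₖ q) := rfl

/-- the symmetric matrix of the antilinear map -/
def tm (p : Matrix κ κ ℂ) : (l → ℂ) →ₗ[ℂ] Matrix (κ ⊕ κ × l) (κ ⊕ κ × l) ℂ where
  toFun t := fromBlocks 0 (kc (cj p) t)ᵀ (kc (cj p) t) 0
  map_add' s t := by ext (i | i) (j | j) <;> simp [kc, mul_add]
  map_smul' r t := by ext (i | i) (j | j) <;> simp [kc, mul_left_comm]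

theorem tm_apply (p : Matrix κ κ ℂ) (t : l → ℂ) :
    tm p t = fromBlocks 0 (kc (cj p) t)ᵀ (kc (cj p) t) 0 := rfl

variable (κ l) in
/-- the inclusion of the first summand -/
def em : Matrix (κ ⊕ κ × l) κ ℂ := fromRows 1 0

/-- the antilinear maps -/
def jm (b : OB (κ ⊕ κ × l) ν) (p : Matrix κ κ ℂ) (q : Matrix l l ℂ) : CL (Eu (l ⊕ l)) (En ν) :=
  LinearMap.toContinuousLinearMap
    { toFun := fun s => rb b b (tm p (q *ᵥ col s)) * Kb b
      map_add' := fun s t => by simp only [map_add, mulVec_add, add_mul]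
      map_smul' := fun r s => by
        rw [map_smul, mulVec_smul, LinearMap.map_smul_of_tower, map_smul, smul_mul_assoc]; rfl }

theorem jm_apply (b : OB (κ ⊕ κ × l) ν) (p : Matrix κ κ ℂ) (q : Matrix l l ℂ) (s : Eu (l ⊕ l)) :
    jm b p q s = rb b b (tm p (q *ᵥ col s)) * Kb b := rfl

theorem cj_blocks {α β : Type} (A : Matrix α α ℂ) (B : Matrix α β ℂ) (C : Matrix β α ℂ)
    (D : Matrix β β ℂ) : cj (fromBlocks A B C D) = fromBlocks (cj A) (cj B) (cj C) (cj D) := by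
  ext (i | i) (j | j) <;> simp

theorem em_em : (em κ l)ᴴ * em κ l = 1 := by
  simp [em, conjTranspose_fromRows_eq_fromCols_conjTranspose, fromCols_mul_fromRows]

theorem bl_em (q : Matrix l l ℂ) (A : Matrix κ κ ℂ) : bl q A * em κ l = em κ l * A := by
  simp [em, bl_apply, fromBlocks_mul_fromRows, fromRows_mul]

theorem em_conj (A : Matrix κ κ ℂ) : em κ l * A * (em κ l)ᴴ = fromBlocks A 0 0 0 := by
  rw [em, conjTranspose_fromRows_eq_fromCols_conjTranspose, fromRows_mul, fromRows_mul_fromCols]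
  simp

section pt
variable {P : ι → ι → ℝ} {p : Matrix κ κ ℂ} {ρ : ι → Matrix κ κ ℂ} {q : Matrix l l ℂ} {t : l → ℂ}

theorem bl_mul (hq : Prj q) (A B : Matrix κ κ ℂ) : bl q (A * B) = bl q A * bl q B := by
  simp [bl_apply, fromBlocks_multiply, ← mul_kronecker_mul, hq.idem, cj_mul]

theorem bl_ct (hq : Prj q) (A : Matrix κ κ ℂ) : (bl q A)ᴴ = bl q Aᴴ := by
  simp only [bl_apply, fromBlocks_conjTranspose, conjTranspose_kronecker, hq.herm,
    conjTranspose_zero]
  rfl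

theorem tm_trp (p : Matrix κ κ ℂ) (t : l → ℂ) : (tm p t)ᵀ = tm p t := by
  simp [tm_apply, fromBlocks_transpose]

theorem bl_tm (h : q *ᵥ t = t) (A : Matrix κ κ ℂ) :
    bl q A * tm p t = fromBlocks 0 (kc (cj (p * Aᴴ)) t)ᵀ (kc (cj (A * p)) t) 0 := by
  have : A * (kc (cj p) t)ᵀ = (kc (cj (p * Aᴴ)) t)ᵀ := by
    rw [cj_mul, ← kc_mul, transpose_mul, cj, cj, conjTranspose_conjTranspose, transpose_transpose]
  simp only [bl_apply, tm_apply, fromBlocks_multiply, Matrix.mul_zero, Matrix.zero_mul, add_zero,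
    zero_add, kron_kc, h, ← cj_mul, this]

theorem tm_comm (hq : Prj q) (h : q *ᵥ t = t) (hp : Prj p) {A : Matrix κ κ ℂ} (h1 : A * p = p * A) :
    tm p t * cj (bl q A) = bl q A * tm p t := by
  have h2 := congrArg conjTranspose h1
  rw [conjTranspose_mul, conjTranspose_mul, hp.herm] at h2
  conv_lhs => rw [← tm_trp, cj, ← transpose_mul, bl_ct hq, bl_tm h, fromBlocks_transpose]
  rw [bl_tm h, h1, h2, conjTranspose_conjTranspose, transpose_transpose, transpose_zero,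
    transpose_zero]

theorem p_tm (h : q *ᵥ t = t) (hp : Prj p) : bl q p * tm p t = tm p t := by
  rw [bl_tm h, hp.herm, hp.idem, tm_apply]

theorem tm_sq (hq : Prj q) (ht : q.trace = 1) (h : q *ᵥ t = t) (hp : Prj p) :
    tm p t * cj (tm p t) = (star t ⬝ᵥ t) • bl q p := by
  have e : pᴴᵀ = pᵀ := by rw [hp.herm]
  have h1 : (kc (cj p) t)ᵀ * cj (kc (cj p) t) = (star t ⬝ᵥ t) • p := by
    rw [cj, cj, ← transpose_mul, ct_kc, e, hp.transpose.herm, hp.transpose.idem, transpose_smul,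
      transpose_transpose]
  have h2 : kc (cj p) t * cj (kc (cj p) t)ᵀ = (star t ⬝ᵥ t) • (cj p ⊗ₖ q) := by
    rw [show cj (kc (cj p) t)ᵀ = (kc (cj p) t)ᴴ from rfl, kc_ct, rank_one hq ht h, cj, e,
      hp.transpose.herm, hp.transpose.idem, kronecker_smul]
  simp only [bl_apply, tm_apply, cj_blocks, fromBlocks_multiply, h1, h2, fromBlocks_smul]
  simp [cj]

theorem tm_half (hp : Prj p) :
    tm p t * cj (fromBlocks p 0 0 0) + fromBlocks p 0 0 0 * tm p t = tm p t := by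
  have : p * (kc (cj p) t)ᵀ = (kc (cj p) t)ᵀ := by
    conv_rhs => rw [← hp.idem, cj_mul, ← kc_mul, transpose_mul]
    rw [cj, transpose_transpose, hp.herm]
  simp only [tm_apply, cj_blocks, fromBlocks_multiply, kc_mul, ← cj_mul, hp.idem, this, fromBlocks_add]
  ext (i | i) (j | j) <;> simp [kc, cj]

theorem cl_map {A B : Type} [Ring A] [Algebra ℝ A] [Ring B] [Algebra ℝ B] {p : A} {ρ : ι → A}
    (h : Cl P p ρ) (f : A →ₗ[ℝ] B) (hf : ∀ S T, f (S * T) = f S * f T) :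
    Cl P (f p) fun a => f (ρ a) :=
  ⟨fun a b => by rw [← hf, ← hf, ← map_add, h.rel, map_smul], fun a => by rw [← hf, h.pl],
    fun a => by rw [← hf, h.pr], fun a => by simp only [← map_smul, ← map_sum, h.proj]⟩

variable (b : OB (κ ⊕ κ × l) ν)

/-- **the module `S ⊕ S̄ ⊗ Λ`** -/
theorem pm_sum (h : PC P p ρ) (hq : Prj q) (ht : q.trace = 1) : Std94.PM P (rl q) (iL l)
    (rb b b (bl q p)) (Jb b) (fun a => rb b b (bl q (ρ a))) (jm b p q) := by
  have k : ∀ s, q *ᵥ (q *ᵥ col s) = q *ᵥ col s := fun s => by rw [mulVec_mulVec, hq.idem]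
  refine ⟨J_sq b, J_skw b, sym_rb b (by rw [bl_ct hq, h.prj.herm]),
    by rw [← rb_mul, ← bl_mul hq, h.prj.idem], ?_, J_rb b _,
    cl_map (cl_map h.cl _ (bl_mul hq)) _ (rb_mul b),
    fun a => skw_rb b (by rw [bl_ct hq, h.sk, map_neg]), fun a => J_rb b _, fun s v w => ?_,
    fun s => ?_, fun s => ?_, fun s => ?_, fun s => ?_, fun s => ?_, fun a s => ?_⟩
  · rw [rb_trace, show (bl q p).trace = p.trace + (cj p ⊗ₖ q).trace from Fintype.sum_sum_type _,
      trace_kronecker, ht, h.tr, h.bar.tr]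
    norm_num
  · rw [← Eqv71.inner_trn', jm_apply, Wz78.trn_mul, K_trn, ← rb_ct, K_rb, cj,
      conjTranspose_conjTranspose, tm_trp]
  · rw [jm_apply, mul_assoc, K_J, mul_neg, ← mul_assoc, ← J_rb, mul_assoc]
  · rw [jm_apply, jm_apply, iL, col_rl, smul_mulVec, one_mulVec, mulVec_smul, map_smul, rb_I,
      ← mul_assoc]
    rfl
  · rw [jm_apply, jm_apply, col_rl, k]
  · rw [jm_apply, mul_assoc, ← mul_assoc (Kb b), ← rb_cj, ← rb_mul, tm_sq hq ht (k s) h.prj,
      ← col_rl, col_sq, Complex.coe_smul, map_smul]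
  · rw [jm_apply, ← mul_assoc, ← rb_mul, p_tm (k s) h.prj]
  · rw [jm_apply, mul_assoc, K_rb, ← mul_assoc, ← rb_mul, ← mul_assoc, ← rb_mul,
      ← tm_comm hq (k s) h.prj (by rw [h.cl.pl, h.cl.pr])]

theorem jm_half (hp : Prj p) (s : Eu (l ⊕ l)) : jm b p q s * rb b b (fromBlocks p 0 0 0) +
    rb b b (fromBlocks p 0 0 0) * jm b p q s = jm b p q s := by
  rw [jm_apply, mul_assoc, K_rb, ← mul_assoc, ← mul_assoc, ← rb_mul, ← rb_mul, ← add_mul, ← map_add,
    tm_half hp]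

end pt

end Crest.Agent.X212.Qmd96
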